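import Vale.Agent.P359.Haar.Rot

/-!
# P359, Haar: the norm bound for a kernel with rotated coherent rows

If the coherent combinations of the rows of a kernel are sums of at most `L + 1` products of
rotated unit vectors, averaging over the rotations bounds the sum over all rows.
-/

noncomputable section

open scoped ComplexConjugate

namespace P359.Haar

variable {E F : Type*} [NormedAddCommGroup E] [InnerProductSpace ℂ E] [NormedAddCommGroup F]
  [InnerProductSpace ℂ F]

/-- Averaging over roots of unity removes the cross terms. -/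
lemma roots_average {m d : ℕ} (hd : d < m) (x : ℕ → F) {ω : ℂ} (hω : IsPrimitiveRoot ω m) :
    ∑ j ∈ Finset.range m, ‖∑ n ∈ Finset.range (d + 1), (ω ^ j) ^ n • x n‖ ^ 2
      = (m : ℝ) * ∑ n ∈ Finset.range (d + 1), ‖x n‖ ^ 2 := by
  have hm : m ≠ 0 := by omega
  have hn : ‖ω‖ = 1 := hω.norm'_eq_one hm
  have hcw : conj ω * ω = 1 := by
    rw [mul_comm, Complex.mul_conj, Complex.normSq_eq_norm_sq, hn]; simp
  have orth : ∀ n ∈ Finset.range (d + 1), ∀ n' ∈ Finset.range (d + 1),
      ∑ j ∈ Finset.range m, conj ((ω ^ j) ^ n) * (ω ^ j) ^ n' = if n = n' then (m : ℂ) else 0 := by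
    intro n hn n' hn'
    rw [Finset.mem_range] at hn hn'
    have e : ∀ j, conj ((ω ^ j) ^ n) * (ω ^ j) ^ n' = (conj ω ^ n * ω ^ n') ^ j := by
      intro j; simp only [map_pow, mul_pow, ← pow_mul, mul_comm j]
    simp only [e]
    split_ifs with h
    · subst h
      rw [← mul_pow, hcw, one_pow]
      simp
    · set z := conj ω ^ n * ω ^ n'
      have hz : z ^ m = 1 := by
        rw [mul_pow, ← pow_mul, ← pow_mul, mul_comm n, mul_comm n', pow_mul, pow_mul, ← map_pow,
          hω.pow_eq_one]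
        simp
      have hz1 : z ≠ 1 := by
        intro hz1
        apply h
        refine hω.pow_inj (by omega) (by omega) ?_
        calc ω ^ n = ω ^ n * z := by rw [hz1, mul_one]
          _ = (conj ω * ω) ^ n * ω ^ n' := by rw [mul_pow]; ring
          _ = ω ^ n' := by rw [hcw, one_pow, one_mul]
      rw [geom_sum_eq hz1, hz, sub_self, zero_div]
  have key : ((∑ j ∈ Finset.range m, ‖∑ n ∈ Finset.range (d + 1), (ω ^ j) ^ n • x n‖ ^ 2 : ℝ) : ℂ)
      = (((m : ℝ) * ∑ n ∈ Finset.range (d + 1), ‖x n‖ ^ 2 : ℝ) : ℂ) := by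
    calc ((∑ j ∈ Finset.range m, ‖∑ n ∈ Finset.range (d + 1), (ω ^ j) ^ n • x n‖ ^ 2 : ℝ) : ℂ)
        = ∑ j ∈ Finset.range m, inner ℂ (∑ n ∈ Finset.range (d + 1), (ω ^ j) ^ n • x n)
            (∑ n ∈ Finset.range (d + 1), (ω ^ j) ^ n • x n) := by
          push_cast
          simp [inner_self_eq_norm_sq_to_K]
      _ = ∑ n ∈ Finset.range (d + 1), ∑ n' ∈ Finset.range (d + 1),
            (∑ j ∈ Finset.range m, conj ((ω ^ j) ^ n) * (ω ^ j) ^ n') * inner ℂ (x n) (x n') := by
          rw [Finset.sum_congr rfl fun j (_ : j ∈ Finset.range m) => show _ = ∑ n ∈ Finset.range (d + 1),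
              ∑ n' ∈ Finset.range (d + 1),
                conj ((ω ^ j) ^ n) * (ω ^ j) ^ n' * inner ℂ (x n) (x n') from ?_]
          · rw [Finset.sum_comm]
            refine Finset.sum_congr rfl fun n _ => ?_
            rw [Finset.sum_comm]
            exact Finset.sum_congr rfl fun n' _ => (Finset.sum_mul _ _ _).symm
          · rw [sum_inner]
            refine Finset.sum_congr rfl fun n _ => ?_
            rw [inner_sum]
            refine Finset.sum_congr rfl fun n' _ => ?_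
            rw [inner_smul_left, inner_smul_right, mul_assoc]
      _ = ∑ n ∈ Finset.range (d + 1), (m : ℂ) * inner ℂ (x n) (x n) := by
          refine Finset.sum_congr rfl fun n hn => ?_
          rw [Finset.sum_eq_single n]
          · rw [orth n hn n hn, if_pos rfl]
          · intro n' hn' hne
            rw [orth n hn n' hn', if_neg (Ne.symm hne), zero_mul]
          · exact fun h => absurd hn h
      _ = _ := by
          push_cast
          rw [Finset.mul_sum]
          simp [inner_self_eq_norm_sq_to_K]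
  exact_mod_cast key

/-- Rows of the kernel applied to a family of vectors. -/
def rowVec (a b : ℕ) (K : ℕ → ℕ → ℕ → ℝ) (c : ℕ → E →ₗ[ℂ] F) (φ : ℕ → E) (J : ℕ) : F :=
  ∑ M ∈ Finset.range (a + 1), ∑ k ∈ Finset.range (b + 1), ((K J M k : ℝ) : ℂ) • c k (φ M)

/-- One phase of the coherent combination. -/
lemma phase_bound {a b L d : ℕ} {K : ℕ → ℕ → ℕ → ℝ}
    (hsupp : ∀ J M k, K J M k ≠ 0 → M + k = J + L) {β : ℕ → ℝ}
    (hβ : ∑ i ∈ Finset.range (L + 1), β i ^ 2 ≤ 1) (hLb : L ≤ b)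
    {t : ℝ} (ht : t ∈ Set.Icc (0 : ℝ) 1)
    (hrow : ∀ M ≤ a, ∀ k ≤ b, ∑ J ∈ Finset.range (d + 1), K J M k * uvec d 0 t J
      = ∑ i ∈ Finset.range (L + 1), β i * (uvec a i t M * uvec b (L - i) t k))
    (c : ℕ → E →ₗ[ℂ] F)
    (hc : ∀ (z : ℕ → ℂ) (x : E), ‖∑ k ∈ Finset.range (b + 1), z k • c k x‖ ^ 2
      ≤ (∑ k ∈ Finset.range (b + 1), ‖z k‖ ^ 2) * ‖x‖ ^ 2)
    (φ : ℕ → E) {z : ℂ} (hz : ‖z‖ = 1) :
    ‖∑ J ∈ Finset.range (d + 1), z ^ J • ((uvec d 0 t J : ℂ) • rowVec a b K c φ J)‖ ^ 2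
      ≤ ∑ i ∈ Finset.range (L + 1),
        ‖∑ M ∈ Finset.range (a + 1), z ^ M • ((uvec a i t M : ℂ) • φ M)‖ ^ 2 := by
  set S := rowVec a b K c φ
  let P : ℕ → E := fun i => ∑ M ∈ Finset.range (a + 1), z ^ M • ((uvec a i t M : ℂ) • φ M)
  show _ ≤ ∑ i ∈ Finset.range (L + 1), ‖P i‖ ^ 2
  let A : ℕ → F := fun i =>
    ∑ k ∈ Finset.range (b + 1), ((uvec b (L - i) t k : ℂ) * z ^ k) • c k (P i)
  have e : z ^ L • (∑ J ∈ Finset.range (d + 1), z ^ J • ((uvec d 0 t J : ℂ) • S J))
      = ∑ i ∈ Finset.range (L + 1), (β i : ℂ) • A i := by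
    calc z ^ L • (∑ J ∈ Finset.range (d + 1), z ^ J • ((uvec d 0 t J : ℂ) • S J))
        = ∑ J ∈ Finset.range (d + 1), ∑ M ∈ Finset.range (a + 1), ∑ k ∈ Finset.range (b + 1),
            ((z ^ (M + k)) * ((K J M k * uvec d 0 t J : ℝ) : ℂ)) • c k (φ M) := by
          simp only [S, rowVec, Finset.smul_sum, smul_smul]
          refine Finset.sum_congr rfl fun J _ => Finset.sum_congr rfl fun M _ =>
            Finset.sum_congr rfl fun k _ => ?_
          by_cases hK : K J M k = 0
          · simp [hK]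
          · rw [hsupp J M k hK, pow_add]
            congr 1
            push_cast
            ring
      _ = ∑ M ∈ Finset.range (a + 1), ∑ k ∈ Finset.range (b + 1),
            ((z ^ (M + k)) * ((∑ J ∈ Finset.range (d + 1), K J M k * uvec d 0 t J : ℝ) : ℂ)) •
              c k (φ M) := by
          rw [Finset.sum_comm]
          refine Finset.sum_congr rfl fun M _ => ?_
          rw [Finset.sum_comm]
          refine Finset.sum_congr rfl fun k _ => ?_
          rw [← Finset.sum_smul]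
          push_cast
          rw [Finset.mul_sum]
      _ = ∑ M ∈ Finset.range (a + 1), ∑ k ∈ Finset.range (b + 1), ∑ i ∈ Finset.range (L + 1),
            ((β i : ℂ) * ((uvec b (L - i) t k : ℂ) * z ^ k) * (z ^ M * (uvec a i t M : ℂ))) •
              c k (φ M) := by
          refine Finset.sum_congr rfl fun M hM => Finset.sum_congr rfl fun k hk => ?_
          rw [Finset.mem_range] at hM hk
          rw [hrow M (by omega) k (by omega), ← Finset.sum_smul]
          push_cast
          rw [Finset.mul_sum]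
          congr 1
          refine Finset.sum_congr rfl fun i _ => ?_
          rw [pow_add]
          ring
      _ = ∑ i ∈ Finset.range (L + 1), (β i : ℂ) • A i := by
          have r1 : ∀ i ∈ Finset.range (L + 1), (β i : ℂ) • A i
              = ∑ k ∈ Finset.range (b + 1), ∑ M ∈ Finset.range (a + 1),
                ((β i : ℂ) * ((uvec b (L - i) t k : ℂ) * z ^ k) *
                  (z ^ M * (uvec a i t M : ℂ))) • c k (φ M) := fun i _ => by
            simp only [A, P, map_sum, map_smul, Finset.smul_sum, smul_smul]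
            exact Finset.sum_congr rfl fun k _ => Finset.sum_congr rfl fun M _ => by
              congr 1
              ring
          rw [Finset.sum_congr rfl r1, Finset.sum_comm (s := Finset.range (L + 1))]
          rw [Finset.sum_comm]
          refine Finset.sum_congr rfl fun k _ => ?_
          rw [Finset.sum_comm]
  have hA : ∀ i ∈ Finset.range (L + 1), ‖A i‖ ≤ ‖P i‖ := by
    intro i hi
    rw [Finset.mem_range] at hi
    refine (pow_le_pow_iff_left₀ (norm_nonneg _) (norm_nonneg _) two_ne_zero).1 ?_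
    refine (hc (fun k => (uvec b (L - i) t k : ℂ) * z ^ k) (P i)).trans_eq ?_
    have : ∑ k ∈ Finset.range (b + 1), ‖(uvec b (L - i) t k : ℂ) * z ^ k‖ ^ 2 = 1 := by
      simp only [norm_mul, norm_pow, hz, one_pow, mul_one, Complex.norm_real,
        Real.norm_eq_abs, sq_abs]
      exact uvec_unit (by omega) ht
    rw [this, one_mul]
  have hn : ‖z ^ L • (∑ J ∈ Finset.range (d + 1), z ^ J • ((uvec d 0 t J : ℂ) • S J))‖
      = ‖∑ J ∈ Finset.range (d + 1), z ^ J • ((uvec d 0 t J : ℂ) • S J)‖ := by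
    rw [norm_smul, norm_pow, hz, one_pow, one_mul]
  rw [← hn, e]
  have h1 : ‖∑ i ∈ Finset.range (L + 1), (β i : ℂ) • A i‖
      ≤ ∑ i ∈ Finset.range (L + 1), |β i| * ‖P i‖ := by
    refine (norm_sum_le _ _).trans (Finset.sum_le_sum fun i hi => ?_)
    rw [norm_smul, Complex.norm_real, Real.norm_eq_abs]
    exact mul_le_mul_of_nonneg_left (hA i hi) (abs_nonneg _)
  refine (pow_le_pow_left₀ (norm_nonneg _) h1 2).trans ?_
  refine (Finset.sum_mul_sq_le_sq_mul_sq _ _ _).trans ?_
  simp only [sq_abs]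
  exact mul_le_of_le_one_left (Finset.sum_nonneg fun i _ => sq_nonneg _) hβ

theorem row_bound {a b L d : ℕ} (hLa : L ≤ a) (hLb : L ≤ b) (hd : d ≤ a + b)
    {K : ℕ → ℕ → ℕ → ℝ} (hsupp : ∀ J M k, K J M k ≠ 0 → M + k = J + L) {β : ℕ → ℝ}
    (hβ : ∑ i ∈ Finset.range (L + 1), β i ^ 2 ≤ 1)
    (hrow : ∀ t ∈ Set.Icc (0 : ℝ) 1, ∀ M ≤ a, ∀ k ≤ b,
      ∑ J ∈ Finset.range (d + 1), K J M k * uvec d 0 t J
        = ∑ i ∈ Finset.range (L + 1), β i * (uvec a i t M * uvec b (L - i) t k))
    (c : ℕ → E →ₗ[ℂ] F)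
    (hc : ∀ (z : ℕ → ℂ) (x : E), ‖∑ k ∈ Finset.range (b + 1), z k • c k x‖ ^ 2
      ≤ (∑ k ∈ Finset.range (b + 1), ‖z k‖ ^ 2) * ‖x‖ ^ 2)
    (φ : ℕ → E) :
    ∑ J ∈ Finset.range (d + 1), ‖rowVec a b K c φ J‖ ^ 2
      ≤ ((L : ℝ) + 1) * ((d : ℝ) + 1) / ((a : ℝ) + 1) * ∑ M ∈ Finset.range (a + 1), ‖φ M‖ ^ 2 := by
  set m := a + b + 1
  set ω : ℂ := Complex.exp (2 * Real.pi * Complex.I / m)
  have hω : IsPrimitiveRoot ω m := Complex.isPrimitiveRoot_exp m (by omega)
  have hnω : ‖ω‖ = 1 := hω.norm'_eq_one (by omega)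
  set S := rowVec a b K c φ
  have hpoint : ∀ t ∈ Set.Icc (0 : ℝ) 1,
      ∑ J ∈ Finset.range (d + 1), uvec d 0 t J ^ 2 * ‖S J‖ ^ 2
        ≤ ∑ i ∈ Finset.range (L + 1), ∑ M ∈ Finset.range (a + 1), uvec a i t M ^ 2 * ‖φ M‖ ^ 2 := by
    intro t ht
    let P : ℕ → ℕ → E := fun j i =>
      ∑ M ∈ Finset.range (a + 1), (ω ^ j) ^ M • ((uvec a i t M : ℂ) • φ M)
    have hj : ∀ j, ‖∑ J ∈ Finset.range (d + 1), (ω ^ j) ^ J • ((uvec d 0 t J : ℂ) • S J)‖ ^ 2
        ≤ ∑ i ∈ Finset.range (L + 1), ‖P j i‖ ^ 2 := fun j =>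
      phase_bound hsupp hβ hLb ht (hrow t ht) c hc φ (by simp [hnω])
    have hs := Finset.sum_le_sum (s := Finset.range m) fun j _ => hj j
    rw [roots_average (by omega) _ hω, Finset.sum_comm,
      Finset.sum_congr rfl fun i (_ : i ∈ Finset.range (L + 1)) =>
        roots_average (m := m) (d := a) (by omega) (fun M => (uvec a i t M : ℂ) • φ M) hω,
      ← Finset.mul_sum] at hs
    have hs' := le_of_mul_le_mul_left hs (by exact_mod_cast (by omega : 0 < m))
    simpa [norm_smul, mul_pow, sq_abs] using hs'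
  have hu : ∀ n i M : ℕ, Continuous fun t => uvec n i t M ^ 2 := fun n i M =>
    (continuous_uvec n i M).pow 2
  have hl : ∫ t in (0 : ℝ)..1, ∑ J ∈ Finset.range (d + 1), uvec d 0 t J ^ 2 * ‖S J‖ ^ 2
      = (1 / ((d : ℝ) + 1)) * ∑ J ∈ Finset.range (d + 1), ‖S J‖ ^ 2 := by
    rw [intervalIntegral.integral_finsetSum fun J _ =>
      ((hu d 0 J).mul_const _).intervalIntegrable 0 1, Finset.mul_sum]
    refine Finset.sum_congr rfl fun J hJ => ?_
    rw [Finset.mem_range] at hJ
    rw [intervalIntegral.integral_mul_const, integral_uvec_sq (Nat.zero_le _) (by omega)]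
  have hr : ∫ t in (0 : ℝ)..1, ∑ i ∈ Finset.range (L + 1), ∑ M ∈ Finset.range (a + 1),
        uvec a i t M ^ 2 * ‖φ M‖ ^ 2
      = ((L : ℝ) + 1) * ((1 / ((a : ℝ) + 1)) * ∑ M ∈ Finset.range (a + 1), ‖φ M‖ ^ 2) := by
    rw [intervalIntegral.integral_finsetSum fun i _ => (continuous_finsetSum _ fun M _ =>
      (hu a i M).mul_const _).intervalIntegrable 0 1]
    rw [Finset.sum_congr rfl (g := fun _ => (1 / ((a : ℝ) + 1)) *
      ∑ M ∈ Finset.range (a + 1), ‖φ M‖ ^ 2) fun i hi => ?_]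
    · simp
    · rw [Finset.mem_range] at hi
      rw [intervalIntegral.integral_finsetSum fun M _ =>
        ((hu a i M).mul_const _).intervalIntegrable 0 1, Finset.mul_sum]
      refine Finset.sum_congr rfl fun M hM => ?_
      rw [Finset.mem_range] at hM
      rw [intervalIntegral.integral_mul_const, integral_uvec_sq (by omega) (by omega)]
  have hcl : Continuous fun t => ∑ J ∈ Finset.range (d + 1), uvec d 0 t J ^ 2 * ‖S J‖ ^ 2 :=
    continuous_finsetSum _ fun J _ => (hu d 0 J).mul_const _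
  have hcr : Continuous fun t => ∑ i ∈ Finset.range (L + 1), ∑ M ∈ Finset.range (a + 1),
      uvec a i t M ^ 2 * ‖φ M‖ ^ 2 :=
    continuous_finsetSum _ fun i _ => continuous_finsetSum _ fun M _ =>
      (hu a i M).mul_const _
  have hi := intervalIntegral.integral_mono_on zero_le_one (hcl.intervalIntegrable (μ := MeasureTheory.volume) 0 1)
    (hcr.intervalIntegrable (μ := MeasureTheory.volume) 0 1) hpoint
  rw [hl, hr, one_div_mul_eq_div, one_div_mul_eq_div, div_le_iff₀ (by positivity)] at hi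
  refine hi.trans_eq ?_
  ring

end P359.Haar

end
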