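import Mathlib

/-!
# P359, Haar: rotated weight vectors, their norm and their average

Coefficients of `(s + r X) ^ n₁ * (-r + s X) ^ n₂` with `s ^ 2 + r ^ 2 = 1`.
-/

noncomputable section

open Polynomial
open scoped Nat

namespace P359.Haar

/-- The rotated monomial. -/
def rot (n₁ n₂ : ℕ) (s r : ℝ) : ℝ[X] := (C s + C r * X) ^ n₁ * (C (-r) + C s * X) ^ n₂

/-- Its coefficients. -/
def rc (n₁ n₂ : ℕ) (s r : ℝ) (M : ℕ) : ℝ := (rot n₁ n₂ s r).coeff M

lemma rot_succ_left (n₁ n₂ : ℕ) (s r : ℝ) :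
    rot (n₁ + 1) n₂ s r = C s * rot n₁ n₂ s r + C r * (X * rot n₁ n₂ s r) := by
  unfold rot; ring

lemma rot_succ_right (n₁ n₂ : ℕ) (s r : ℝ) :
    rot n₁ (n₂ + 1) s r = C (-r) * rot n₁ n₂ s r + C s * (X * rot n₁ n₂ s r) := by
  unfold rot; ring

lemma natDegree_rot (n₁ n₂ : ℕ) (s r : ℝ) : (rot n₁ n₂ s r).natDegree ≤ n₁ + n₂ := by
  unfold rot
  refine natDegree_mul_le.trans (add_le_add ?_ ?_) <;>
    refine natDegree_pow_le.trans ((Nat.mul_le_mul_left _ ?_).trans_eq (Nat.mul_one _)) <;>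
    rw [add_comm] <;> exact natDegree_linear_le

lemma rc_eq_zero {n₁ n₂ M : ℕ} (h : n₁ + n₂ < M) (s r : ℝ) : rc n₁ n₂ s r M = 0 :=
  coeff_eq_zero_of_natDegree_lt ((natDegree_rot n₁ n₂ s r).trans_lt h)

/-- Sum of the squares of the two children. -/
lemma rc_sq (n₁ n₂ : ℕ) {s r : ℝ} (h : s ^ 2 + r ^ 2 = 1) (M : ℕ) :
    rc (n₁ + 1) n₂ s r M ^ 2 + rc n₁ (n₂ + 1) s r M ^ 2
      = rc n₁ n₂ s r M ^ 2 + (if M = 0 then 0 else rc n₁ n₂ s r (M - 1) ^ 2) := by
  simp only [rc, rot_succ_left, rot_succ_right, coeff_add, coeff_C_mul]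
  cases M with
  | zero =>
    simp only [mul_coeff_zero, coeff_X_zero, zero_mul, mul_zero, add_zero, ↓reduceIte]
    linear_combination ((rot n₁ n₂ s r).coeff 0) ^ 2 * h
  | succ M =>
    simp only [coeff_X_mul, Nat.succ_ne_zero, if_false, Nat.add_sub_cancel]
    linear_combination
      (((rot n₁ n₂ s r).coeff (M + 1)) ^ 2 + ((rot n₁ n₂ s r).coeff M) ^ 2) * h

lemma rc_zero_right (n : ℕ) (s r : ℝ) (M : ℕ) :
    rc n 0 s r M = s ^ (n - M) * r ^ M * n.choose M := by
  unfold rc rot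
  rw [pow_zero, mul_one, add_comm, add_pow, finsetSum_coeff]
  simp only [mul_pow, ← C_pow, ← C_eq_natCast]
  rw [Finset.sum_eq_single M]
  · rw [show C (r ^ M) * X ^ M * C (s ^ (n - M)) * C (n.choose M : ℝ)
      = C (r ^ M * s ^ (n - M) * n.choose M) * X ^ M by simp only [C_mul]; ring,
      coeff_C_mul, coeff_X_pow_self, mul_one]
    ring
  · intro b _ hb
    rw [show C (r ^ b) * X ^ b * C (s ^ (n - b)) * C (n.choose b : ℝ)
      = C (r ^ b * s ^ (n - b) * n.choose b) * X ^ b by simp only [C_mul]; ring,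
      coeff_C_mul, coeff_X_pow, if_neg (Ne.symm hb), mul_zero]
  · intro hM
    rw [Finset.mem_range, not_lt] at hM
    simp [Nat.choose_eq_zero_of_lt (by omega : n < M)]

/-- The two derivative identities. -/
lemma rc_deriv (n₁ n₂ : ℕ) (s r : ℝ) (M : ℕ) :
    ((M : ℝ) + 1) * rc n₁ n₂ s r (M + 1)
      = n₁ * r * rc (n₁ - 1) n₂ s r M + n₂ * s * rc n₁ (n₂ - 1) s r M := by
  have e : derivative (rot n₁ n₂ s r)
      = C ((n₁ : ℝ) * r) * rot (n₁ - 1) n₂ s r + C ((n₂ : ℝ) * s) * rot n₁ (n₂ - 1) s r := by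
    simp only [rot, derivative_mul, derivative_pow, derivative_add, derivative_C, derivative_X,
      C_mul, C_eq_natCast]
    ring
  have := congrArg (fun p : ℝ[X] => p.coeff M) e
  simp only [coeff_derivative, coeff_add, coeff_C_mul] at this
  rw [mul_comm]
  exact this

lemma rc_euler (n₁ n₂ : ℕ) (s r : ℝ) (M : ℕ) :
    ((n₁ : ℝ) + n₂ - M) * rc n₁ n₂ s r M
      = n₁ * s * rc (n₁ - 1) n₂ s r M - n₂ * r * rc n₁ (n₂ - 1) s r M := by
  have a : (n₁ : ℝ) * rc n₁ n₂ s r M = n₁ * (s * rc (n₁ - 1) n₂ s r M +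
      r * (X * rot (n₁ - 1) n₂ s r).coeff M) := by
    rcases Nat.eq_zero_or_pos n₁ with rfl | h
    · simp
    · congr 1
      obtain ⟨m, rfl⟩ := Nat.exists_eq_add_of_le' h
      simp only [rc, rot_succ_left, coeff_add, coeff_C_mul, Nat.add_sub_cancel]
  have b : (n₂ : ℝ) * rc n₁ n₂ s r M = n₂ * (-r * rc n₁ (n₂ - 1) s r M +
      s * (X * rot n₁ (n₂ - 1) s r).coeff M) := by
    rcases Nat.eq_zero_or_pos n₂ with rfl | h
    · simp
    · congr 1
      obtain ⟨m, rfl⟩ := Nat.exists_eq_add_of_le' h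
      simp only [rc, rot_succ_right, coeff_add, coeff_C_mul, Nat.add_sub_cancel]
  have c : (M : ℝ) * rc n₁ n₂ s r M = n₁ * r * (X * rot (n₁ - 1) n₂ s r).coeff M
      + n₂ * s * (X * rot n₁ (n₂ - 1) s r).coeff M := by
    cases M with
    | zero => simp [mul_coeff_zero]
    | succ M =>
      simp only [coeff_X_mul]
      push_cast
      exact rc_deriv n₁ n₂ s r M
  linear_combination a + b - c

/-- The invariant norm of a rotated monomial. -/
lemma rc_norm {s r : ℝ} (h : s ^ 2 + r ^ 2 = 1) : ∀ n n₁ n₂ : ℕ, n₁ + n₂ = n →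
    ∑ M ∈ Finset.range (n + 1), rc n₁ n₂ s r M ^ 2 * ((M ! : ℝ) * ((n - M)! : ℝ))
      = (n₁ ! : ℝ) * (n₂ ! : ℝ) := by
  intro n
  induction n with
  | zero =>
    intro n₁ n₂ e
    obtain ⟨rfl, rfl⟩ : n₁ = 0 ∧ n₂ = 0 := by omega
    simp [rc, rot]
  | succ n ih =>
    intro n₁ n₂ e
    have en : ((n : ℝ) + 1) = (n₁ : ℝ) + n₂ := by exact_mod_cast e.symm
    set w : ℕ → ℝ := fun M => (M ! : ℝ) * ((n - M)! : ℝ)
    have h1 : ∑ M ∈ Finset.range (n + 2),
        ((n₁ : ℝ) + n₂ - M) * (rc n₁ n₂ s r M ^ 2 * ((M ! : ℝ) * ((n + 1 - M)! : ℝ)))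
        = ∑ M ∈ Finset.range (n + 1), (((n₁ : ℝ) + n₂ - M) * rc n₁ n₂ s r M) ^ 2 * w M := by
      rw [Finset.sum_range_succ]
      have z : (n₁ : ℝ) + n₂ - ((n + 1 : ℕ) : ℝ) = 0 := by push_cast; linarith
      rw [z, zero_mul, add_zero]
      refine Finset.sum_congr rfl fun M hM => ?_
      rw [Finset.mem_range] at hM
      rw [show n + 1 - M = (n - M) + 1 by omega, Nat.factorial_succ]
      simp only [w]
      push_cast
      rw [Nat.cast_sub (by omega : M ≤ n), ← en]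
      ring
    have h2 : ∑ M ∈ Finset.range (n + 2),
        (M : ℝ) * (rc n₁ n₂ s r M ^ 2 * ((M ! : ℝ) * ((n + 1 - M)! : ℝ)))
        = ∑ M ∈ Finset.range (n + 1), (((M : ℝ) + 1) * rc n₁ n₂ s r (M + 1)) ^ 2 * w M := by
      rw [Finset.sum_range_succ']
      simp only [Nat.cast_zero, zero_mul, add_zero]
      refine Finset.sum_congr rfl fun M hM => ?_
      rw [show n + 1 - (M + 1) = n - M by omega, Nat.factorial_succ]
      simp only [w]
      push_cast
      ring
    have key : ((n : ℝ) + 1) * ∑ M ∈ Finset.range (n + 2),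
        rc n₁ n₂ s r M ^ 2 * ((M ! : ℝ) * ((n + 1 - M)! : ℝ))
        = (n₁ : ℝ) ^ 2 * ∑ M ∈ Finset.range (n + 1), rc (n₁ - 1) n₂ s r M ^ 2 * w M
          + (n₂ : ℝ) ^ 2 * ∑ M ∈ Finset.range (n + 1), rc n₁ (n₂ - 1) s r M ^ 2 * w M := by
      calc ((n : ℝ) + 1) * ∑ M ∈ Finset.range (n + 2),
            rc n₁ n₂ s r M ^ 2 * ((M ! : ℝ) * ((n + 1 - M)! : ℝ))
          = ∑ M ∈ Finset.range (n + 2),
            ((n₁ : ℝ) + n₂ - M) * (rc n₁ n₂ s r M ^ 2 * ((M ! : ℝ) * ((n + 1 - M)! : ℝ)))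
            + ∑ M ∈ Finset.range (n + 2),
            (M : ℝ) * (rc n₁ n₂ s r M ^ 2 * ((M ! : ℝ) * ((n + 1 - M)! : ℝ))) := by
            rw [Finset.mul_sum, ← Finset.sum_add_distrib, en]
            exact Finset.sum_congr rfl fun M _ => by ring
        _ = _ := by
            rw [h1, h2, ← Finset.sum_add_distrib, Finset.mul_sum, Finset.mul_sum,
              ← Finset.sum_add_distrib]
            refine Finset.sum_congr rfl fun M _ => ?_
            rw [rc_euler, rc_deriv]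
            linear_combination w M *
              ((n₁ : ℝ) ^ 2 * rc (n₁ - 1) n₂ s r M ^ 2 + (n₂ : ℝ) ^ 2 * rc n₁ (n₂ - 1) s r M ^ 2) * h
    have a : (n₁ : ℝ) ^ 2 * ∑ M ∈ Finset.range (n + 1), rc (n₁ - 1) n₂ s r M ^ 2 * w M
        = n₁ * ((n₁ ! : ℝ) * (n₂ ! : ℝ)) := by
      rcases Nat.eq_zero_or_pos n₁ with rfl | hp
      · simp
      · obtain ⟨m, rfl⟩ := Nat.exists_eq_add_of_le' hp
        simp only [w, Nat.add_sub_cancel]
        rw [ih m n₂ (by omega), Nat.factorial_succ]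
        push_cast; ring
    have b : (n₂ : ℝ) ^ 2 * ∑ M ∈ Finset.range (n + 1), rc n₁ (n₂ - 1) s r M ^ 2 * w M
        = n₂ * ((n₁ ! : ℝ) * (n₂ ! : ℝ)) := by
      rcases Nat.eq_zero_or_pos n₂ with rfl | hp
      · simp
      · obtain ⟨m, rfl⟩ := Nat.exists_eq_add_of_le' hp
        simp only [w, Nat.add_sub_cancel]
        rw [ih n₁ m (by omega), Nat.factorial_succ]
        push_cast; ring
    rw [a, b, ← add_mul, ← en] at key
    exact mul_left_cancel₀ (by positivity) key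

/-- The averaged square. -/
lemma integral_rc_sq : ∀ n₂ n₁ M : ℕ,
    ∫ t in (0 : ℝ)..1, rc n₁ n₂ (Real.sqrt (1 - t)) (Real.sqrt t) M ^ 2
      = (n₁ ! : ℝ) * (n₂ ! : ℝ) / ((n₁ + n₂ + 1)! : ℝ) * (n₁ + n₂).choose M := by
  have hsr : ∀ t ∈ Set.uIcc (0 : ℝ) 1, Real.sqrt (1 - t) ^ 2 + Real.sqrt t ^ 2 = 1 := by
    intro t ht
    rw [Set.uIcc_of_le zero_le_one] at ht
    rw [Real.sq_sqrt (by linarith [ht.2]), Real.sq_sqrt ht.1]
    ring
  have beta : ∀ n₂ n₁ : ℕ, ∫ t in (0 : ℝ)..1, (1 - t) ^ n₁ * t ^ n₂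
      = (n₁ ! : ℝ) * (n₂ ! : ℝ) / ((n₁ + n₂ + 1)! : ℝ) := by
    intro n₂
    induction n₂ with
    | zero =>
      intro n₁
      simp only [pow_zero, mul_one]
      rw [intervalIntegral.integral_comp_sub_left (fun x => x ^ n₁) 1, integral_pow,
        Nat.add_zero, Nat.factorial_succ]
      push_cast
      field_simp
      simp
    | succ n₂ ih =>
      intro n₁
      have e : ∀ t : ℝ, (1 - t) ^ n₁ * t ^ (n₂ + 1)
          = (1 - t) ^ n₁ * t ^ n₂ - (1 - t) ^ (n₁ + 1) * t ^ n₂ := fun t => by ring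
      simp only [e]
      rw [intervalIntegral.integral_sub (Continuous.intervalIntegrable (by fun_prop) _ _)
        (Continuous.intervalIntegrable (by fun_prop) _ _), ih, ih,
        show n₁ + 1 + n₂ + 1 = n₁ + n₂ + 1 + 1 by omega,
        show n₁ + (n₂ + 1) + 1 = n₁ + n₂ + 1 + 1 by omega,
        Nat.factorial_succ (n₁ + n₂ + 1), Nat.factorial_succ n₁, Nat.factorial_succ n₂]
      push_cast
      field_simp
      ring
  have hc : ∀ n₁ n₂ M : ℕ,
      Continuous fun t => rc n₁ n₂ (Real.sqrt (1 - t)) (Real.sqrt t) M := by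
    intro n₁ n₂
    induction n₂ with
    | zero => intro M; simp only [rc_zero_right]; fun_prop
    | succ n₂ ih =>
      intro M
      cases M with
      | zero =>
        have := ih 0
        simp only [rc, rot_succ_right, coeff_add, coeff_C_mul, mul_coeff_zero, coeff_X_zero,
          zero_mul, mul_zero, add_zero, coeff_C_zero] at this ⊢
        fun_prop
      | succ M =>
        have a := ih M
        have b := ih (M + 1)
        simp only [rc, rot_succ_right, coeff_add, coeff_C_mul, coeff_X_mul] at a b ⊢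
        fun_prop
  intro n₂
  induction n₂ with
  | zero =>
    intro n₁ M
    rcases Nat.lt_or_ge n₁ M with h | h
    · simp [rc_zero_right, Nat.choose_eq_zero_of_lt h]
    · rw [intervalIntegral.integral_congr (g := fun t => ((1 - t) ^ (n₁ - M) * t ^ M) *
        (n₁.choose M : ℝ) ^ 2)]
      · rw [intervalIntegral.integral_mul_const, beta, Nat.sub_add_cancel h]
        simp only [Nat.add_zero, Nat.factorial_zero, Nat.cast_one, mul_one]
        rw [← Nat.choose_mul_factorial_mul_factorial h]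
        push_cast
        field_simp
      · intro t ht
        rw [Set.uIcc_of_le zero_le_one] at ht
        simp only [rc_zero_right, mul_pow, ← pow_mul]
        rw [mul_comm (n₁ - M) 2, mul_comm M 2, pow_mul, pow_mul,
          Real.sq_sqrt (by linarith [ht.2]), Real.sq_sqrt ht.1]
  | succ n₂ ih =>
    intro n₁ M
    have e : ∫ t in (0 : ℝ)..1, rc n₁ (n₂ + 1) (Real.sqrt (1 - t)) (Real.sqrt t) M ^ 2
        = ∫ t in (0 : ℝ)..1, ((rc n₁ n₂ (Real.sqrt (1 - t)) (Real.sqrt t) M ^ 2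
            + (if M = 0 then 0 else rc n₁ n₂ (Real.sqrt (1 - t)) (Real.sqrt t) (M - 1) ^ 2))
            - rc (n₁ + 1) n₂ (Real.sqrt (1 - t)) (Real.sqrt t) M ^ 2) :=
      intervalIntegral.integral_congr fun t ht => by
        linarith [rc_sq n₁ n₂ (hsr t ht) M]
    have hI : ∀ n₁ n₂ M : ℕ, IntervalIntegrable
        (fun t => rc n₁ n₂ (Real.sqrt (1 - t)) (Real.sqrt t) M ^ 2) MeasureTheory.volume 0 1 :=
      fun n₁ n₂ M => ((hc n₁ n₂ M).pow 2).intervalIntegrable 0 1
    have i1 := hI n₁ n₂ M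
    have i3 := hI (n₁ + 1) n₂ M
    rw [e]
    cases M with
    | zero =>
      simp only [↓reduceIte, add_zero]
      rw [intervalIntegral.integral_sub i1 i3, ih, ih,
        show n₁ + 1 + n₂ + 1 = n₁ + n₂ + 1 + 1 by omega,
        show n₁ + (n₂ + 1) + 1 = n₁ + n₂ + 1 + 1 by omega,
        Nat.factorial_succ (n₁ + n₂ + 1), Nat.factorial_succ n₁, Nat.factorial_succ n₂]
      simp only [Nat.choose_zero_right]
      push_cast
      field_simp
      ring
    | succ M =>
      simp only [Nat.succ_ne_zero, ↓reduceIte, Nat.add_sub_cancel]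
      have i2 := hI n₁ n₂ M
      rw [intervalIntegral.integral_sub (i1.add i2) i3, intervalIntegral.integral_add i1 i2,
        ih, ih, ih,
        show n₁ + 1 + n₂ + 1 = n₁ + n₂ + 1 + 1 by omega,
        show n₁ + (n₂ + 1) + 1 = n₁ + n₂ + 1 + 1 by omega,
        show n₁ + 1 + n₂ = n₁ + n₂ + 1 by omega,
        show n₁ + (n₂ + 1) = n₁ + n₂ + 1 by omega,
        Nat.choose_succ_succ' (n₁ + n₂) M,
        Nat.factorial_succ (n₁ + n₂ + 1), Nat.factorial_succ n₁, Nat.factorial_succ n₂]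
      push_cast
      field_simp
      ring

/-- A unit weight vector of the rotated frame. -/
def uvec (n i : ℕ) (t : ℝ) (M : ℕ) : ℝ :=
  rc (n - i) i (Real.sqrt (1 - t)) (Real.sqrt t) M * Real.sqrt (n.choose i) / Real.sqrt (n.choose M)

lemma uvec_sq (n i : ℕ) (t : ℝ) (M : ℕ) :
    uvec n i t M ^ 2 = rc (n - i) i (Real.sqrt (1 - t)) (Real.sqrt t) M ^ 2 *
      (n.choose i : ℝ) / (n.choose M : ℝ) := by
  rw [uvec, div_pow, mul_pow, Real.sq_sqrt (Nat.cast_nonneg _), Real.sq_sqrt (Nat.cast_nonneg _)]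

lemma uvec_unit {n i : ℕ} (hi : i ≤ n) {t : ℝ} (ht : t ∈ Set.Icc (0 : ℝ) 1) :
    ∑ M ∈ Finset.range (n + 1), uvec n i t M ^ 2 = 1 := by
  have h : Real.sqrt (1 - t) ^ 2 + Real.sqrt t ^ 2 = 1 := by
    rw [Real.sq_sqrt (by linarith [ht.2]), Real.sq_sqrt ht.1]; ring
  have hn := rc_norm h n (n - i) i (Nat.sub_add_cancel hi)
  calc ∑ M ∈ Finset.range (n + 1), uvec n i t M ^ 2
      = ∑ M ∈ Finset.range (n + 1), ((n.choose i : ℝ) / n !) *
          (rc (n - i) i (Real.sqrt (1 - t)) (Real.sqrt t) M ^ 2 * ((M ! : ℝ) * ((n - M)! : ℝ))) := by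
        refine Finset.sum_congr rfl fun M hM => ?_
        rw [Finset.mem_range] at hM
        rw [uvec_sq, Nat.cast_choose ℝ (by omega : M ≤ n)]
        field_simp
    _ = 1 := by
        rw [← Finset.mul_sum, hn, ← Nat.choose_mul_factorial_mul_factorial hi]
        push_cast
        have := Nat.choose_pos hi
        field_simp

lemma integral_uvec_sq {n i M : ℕ} (hi : i ≤ n) (hM : M ≤ n) :
    ∫ t in (0 : ℝ)..1, uvec n i t M ^ 2 = 1 / ((n : ℝ) + 1) := by
  simp only [uvec_sq, mul_div_assoc]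
  rw [intervalIntegral.integral_mul_const, integral_rc_sq, Nat.sub_add_cancel hi,
    Nat.factorial_succ, ← Nat.choose_mul_factorial_mul_factorial hi]
  have := Nat.choose_pos hi
  have := Nat.choose_pos hM
  push_cast
  field_simp

lemma continuous_uvec (n i M : ℕ) : Continuous fun t => uvec n i t M := by
  have : ∀ n₂ n₁ M : ℕ, Continuous fun t => rc n₁ n₂ (Real.sqrt (1 - t)) (Real.sqrt t) M := by
    intro n₂ n₁
    induction n₂ with
    | zero => intro M; simp only [rc_zero_right]; fun_prop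
    | succ n₂ ih =>
      intro M
      have a := ih (M - 1)
      have b := ih M
      cases M with
      | zero =>
        simp only [rc, rot_succ_right, coeff_add, coeff_C_mul, mul_coeff_zero, coeff_X_zero,
          zero_mul, mul_zero, add_zero, coeff_C_zero] at b ⊢
        fun_prop
      | succ M =>
        simp only [rc, rot_succ_right, coeff_add, coeff_C_mul, coeff_X_mul,
          Nat.add_sub_cancel] at a b ⊢
        fun_prop
  exact ((this i (n - i) M).mul continuous_const).div_const _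

end P359.Haar

end
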