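import Vale.Agent.P359.Defs
import Vale.Agent.P359.Haar.Rot

/-!
# P359, Haar: the coherent rows of `coup`
-/

noncomputable section

open Polynomial

namespace P359.Haar

/-- Product of a polynomial in the first variable and one in the second. -/
def tens (p q : ℝ[X]) : ℝ[X][X] := C p * q.map C

lemma coeff_tens (p q : ℝ[X]) (M k : ℕ) :
    ((tens p q).coeff k).coeff M = p.coeff M * q.coeff k := by
  rw [tens, coeff_C_mul, coeff_map, coeff_mul_C]

lemma tens_mul (p q p' q' : ℝ[X]) : tens p q * tens p' q' = tens (p * p') (q * q') := by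
  simp only [tens, C_mul, Polynomial.map_mul]; ring

lemma tens_pow (p q : ℝ[X]) (n : ℕ) : tens p q ^ n = tens (p ^ n) (q ^ n) := by
  simp only [tens, mul_pow, C_pow, Polynomial.map_pow]

/-- Expansion of the determinant in the rotated frame. -/
lemma det_expand (a b L : ℕ) (ha : L ≤ a) (hb : L ≤ b) {s r : ℝ} (h : s ^ 2 + r ^ 2 = 1) :
    ∑ i ∈ Finset.range (L + 1), ((-1 : ℝ[X][X]) ^ i * (L.choose i : ℝ[X][X])) *
        tens (rot (a - i) i s r) (rot (b - (L - i)) (L - i) s r)
      = ∑ i ∈ Finset.range (L + 1), ((-1 : ℝ[X][X]) ^ i * (L.choose i : ℝ[X][X])) *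
        tens (X ^ i * rot (a - L) 0 s r) (X ^ (L - i) * rot (b - L) 0 s r) := by
  set p : ℝ[X] := C s + C r * X
  set p' : ℝ[X] := C (-r) + C s * X
  have det : tens p p' - tens p' p = tens 1 X - tens X 1 := by
    have hh : (C (C s) ^ 2 + C (C r) ^ 2 : ℝ[X][X]) = 1 := by
      rw [← map_pow, ← map_pow, ← map_pow, ← map_pow, ← map_add, ← map_add, h, map_one, map_one]
    simp only [p, p', tens, Polynomial.map_add, Polynomial.map_mul, map_C, map_X, C_add, C_mul,
      map_neg, Polynomial.map_neg, Polynomial.map_one, map_one]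
    linear_combination ((X : ℝ[X][X]) - C X) * hh
  have expand : ∀ u v : ℝ[X][X], (u - v) ^ L
      = ∑ i ∈ Finset.range (L + 1), ((-1 : ℝ[X][X]) ^ i * (L.choose i : ℝ[X][X])) *
          (u ^ (L - i) * v ^ i) := fun u v => by
    rw [show u - v = -v + u by ring, add_pow]
    refine Finset.sum_congr rfl fun i _ => ?_
    rw [show (-v) ^ i = (-1) ^ i * v ^ i by rw [← mul_pow]; ring]; ring
  have lhs : ∀ i ∈ Finset.range (L + 1),
      tens (rot (a - i) i s r) (rot (b - (L - i)) (L - i) s r)
        = tens (p ^ (a - L)) (p ^ (b - L)) * ((tens p p') ^ (L - i) * (tens p' p) ^ i) := by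
    intro i hi
    rw [Finset.mem_range] at hi
    rw [tens_pow, tens_pow, tens_mul, tens_mul]
    congr 1
    · rw [rot, ← mul_assoc, ← pow_add, show a - L + (L - i) = a - i by omega]
    · rw [rot, mul_comm (p' ^ (L - i)), ← mul_assoc, ← pow_add,
        show b - L + i = b - (L - i) by omega]
  have rhs : ∀ i ∈ Finset.range (L + 1),
      tens (X ^ i * rot (a - L) 0 s r) (X ^ (L - i) * rot (b - L) 0 s r)
        = tens (p ^ (a - L)) (p ^ (b - L)) * ((tens 1 X) ^ (L - i) * (tens X 1) ^ i) := by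
    intro i _
    rw [tens_pow, tens_pow, tens_mul, tens_mul]
    simp only [rot, pow_zero, mul_one, one_pow, one_mul, p]
    rw [mul_comm (X ^ i), mul_comm (X ^ (L - i))]
  rw [Finset.sum_congr rfl fun i hi => by rw [lhs i hi, mul_left_comm],
    Finset.sum_congr rfl (s₁ := Finset.range (L + 1))
      (g := fun i => tens (p ^ (a - L)) (p ^ (b - L)) *
        (((-1 : ℝ[X][X]) ^ i * (L.choose i : ℝ[X][X])) * ((tens 1 X) ^ (L - i) * (tens X 1) ^ i)))
      (f := fun i => ((-1 : ℝ[X][X]) ^ i * (L.choose i : ℝ[X][X])) *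
        tens (X ^ i * rot (a - L) 0 s r) (X ^ (L - i) * rot (b - L) 0 s r))
      fun i hi => by rw [rhs i hi, mul_left_comm],
    ← Finset.mul_sum, ← Finset.mul_sum, ← expand, ← expand, det]

lemma coeff_expand (a b L : ℕ) (ha : L ≤ a) (hb : L ≤ b) {s r : ℝ} (h : s ^ 2 + r ^ 2 = 1)
    (M k : ℕ) :
    ∑ i ∈ Finset.range (L + 1), ((-1 : ℝ) ^ i * (L.choose i : ℝ)) *
        (rc (a - i) i s r M * rc (b - (L - i)) (L - i) s r k)
      = ∑ i ∈ Finset.range (L + 1), ((-1 : ℝ) ^ i * (L.choose i : ℝ)) *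
        ((if i ≤ M then rc (a - L) 0 s r (M - i) else 0) *
          (if L - i ≤ k then rc (b - L) 0 s r (k - (L - i)) else 0)) := by
  have e := congrArg (fun P : ℝ[X][X] => (P.coeff k).coeff M) (det_expand a b L ha hb h)
  have cast : ∀ i : ℕ, ((-1 : ℝ[X][X]) ^ i * (L.choose i : ℝ[X][X]))
      = C (C ((-1 : ℝ) ^ i * (L.choose i : ℝ))) := fun i => by simp
  simp only [cast, finsetSum_coeff, coeff_C_mul, coeff_tens, coeff_X_pow_mul'] at e
  exact e

lemma coupN_pos' {a b L : ℕ} (ha : L ≤ a) (hb : L ≤ b) : 0 < coupN a b L := by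
  refine Finset.sum_pos (fun i hi => ?_) ⟨0, by simp⟩
  rw [Finset.mem_range] at hi
  have := Nat.choose_pos (show i ≤ a by omega)
  have := Nat.choose_pos (show L - i ≤ b by omega)
  have := Nat.choose_pos (show i ≤ L by omega)
  positivity

/-- Coefficients of the rotated expansion. -/
def coefB (a b L i : ℕ) : ℝ :=
  (-1 : ℝ) ^ i * (L.choose i : ℝ) /
    (Real.sqrt (coupN a b L) * (Real.sqrt (a.choose i) * Real.sqrt (b.choose (L - i))))

lemma coefB_sq {a b L : ℕ} (ha : L ≤ a) (hb : L ≤ b) :
    ∑ i ∈ Finset.range (L + 1), coefB a b L i ^ 2 = 1 := by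
  have hN := coupN_pos' ha hb
  calc ∑ i ∈ Finset.range (L + 1), coefB a b L i ^ 2
      = ∑ i ∈ Finset.range (L + 1), (coupN a b L)⁻¹ *
          ((L.choose i : ℝ) ^ 2 / ((a.choose i : ℝ) * (b.choose (L - i) : ℝ))) := by
        refine Finset.sum_congr rfl fun i _ => ?_
        rw [coefB, div_pow, mul_pow, mul_pow, mul_pow, Real.sq_sqrt hN.le,
          Real.sq_sqrt (Nat.cast_nonneg _), Real.sq_sqrt (Nat.cast_nonneg _), ← pow_mul,
          mul_comm i 2, pow_mul, neg_one_sq, one_pow, one_mul]
        field_simp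
    _ = 1 := by rw [← Finset.mul_sum]; exact inv_mul_cancel₀ hN.ne'

lemma coup_supp {a b L J M k : ℕ} (h : coup a b L J M k ≠ 0) : M + k = J + L := by
  by_contra hn
  exact h (by simp [coup, hn])

theorem coherent_row {a b L : ℕ} (ha : L ≤ a) (hb : L ≤ b) {t : ℝ} (ht : t ∈ Set.Icc (0 : ℝ) 1)
    {M k : ℕ} (hM : M ≤ a) (hk : k ≤ b) :
    ∑ J ∈ Finset.range (a + b - 2 * L + 1), coup a b L J M k * uvec (a + b - 2 * L) 0 t J
      = ∑ i ∈ Finset.range (L + 1),
          coefB a b L i * (uvec a i t M * uvec b (L - i) t k) := by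
  set s := Real.sqrt (1 - t)
  set r := Real.sqrt t
  set d := a + b - 2 * L
  have h : s ^ 2 + r ^ 2 = 1 := by
    rw [Real.sq_sqrt (by linarith [ht.2]), Real.sq_sqrt ht.1]; ring
  have hN := coupN_pos' ha hb
  set D : ℝ := Real.sqrt (coupN a b L) * (Real.sqrt (a.choose M) * Real.sqrt (b.choose k))
  have right : ∑ i ∈ Finset.range (L + 1), coefB a b L i * (uvec a i t M * uvec b (L - i) t k)
      = (∑ i ∈ Finset.range (L + 1), ((-1 : ℝ) ^ i * (L.choose i : ℝ)) *
          (rc (a - i) i s r M * rc (b - (L - i)) (L - i) s r k)) / D := by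
    rw [Finset.sum_div]
    refine Finset.sum_congr rfl fun i hi => ?_
    rw [Finset.mem_range] at hi
    have hp : ∀ n j : ℕ, j ≤ n → Real.sqrt (n.choose j : ℝ) ≠ 0 := fun n j hj =>
      (Real.sqrt_pos.2 (by exact_mod_cast Nat.choose_pos hj)).ne'
    have := hp a i (by omega)
    have := hp b (L - i) (by omega)
    have := (Real.sqrt_pos.2 hN).ne'
    simp only [coefB, uvec, D]
    field_simp
    rfl
  rw [right, coeff_expand a b L ha hb h]
  by_cases hJ : L ≤ M + k ∧ M + k - L ≤ d
  · rw [Finset.sum_eq_single (M + k - L)]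
    rotate_left
    · intro J _ hne
      have hn : ¬ (M + k = J + L) := by omega
      simp [coup, hn]
    · intro hn
      exact absurd (Finset.mem_range.2 (by omega)) hn
    have hc : Real.sqrt (d.choose (M + k - L) : ℝ) ≠ 0 :=
      (Real.sqrt_pos.2 (by exact_mod_cast Nat.choose_pos hJ.2)).ne'
    rw [coup, if_pos ⟨ha, hb, by omega⟩, uvec, Nat.sub_zero, Nat.choose_zero_right, Nat.cast_one,
      Real.sqrt_one, mul_one, rc_zero_right,
      show Real.sqrt (((d.choose (M + k - L) : ℕ) : ℝ) * (a.choose M : ℝ) * (b.choose k : ℝ) *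
          coupN a b L) = Real.sqrt (d.choose (M + k - L)) * D by
        rw [Real.sqrt_mul (by positivity), Real.sqrt_mul (by positivity),
          Real.sqrt_mul (by positivity)]
        simp only [D]; ring]
    have key : coupRaw a b L M k * (s ^ (d - (M + k - L)) * r ^ (M + k - L))
        = ∑ i ∈ Finset.range (L + 1), ((-1 : ℝ) ^ i * (L.choose i : ℝ)) *
          ((if i ≤ M then rc (a - L) 0 s r (M - i) else 0) *
            (if L - i ≤ k then rc (b - L) 0 s r (k - (L - i)) else 0)) := by
      rw [coupRaw, Finset.sum_mul]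
      refine Finset.sum_congr rfl fun i hi => ?_
      rw [Finset.mem_range] at hi
      by_cases h1 : i ≤ M ∧ L ≤ k + i
      · rw [if_pos h1, if_pos h1.1, if_pos (by omega : L - i ≤ k), rc_zero_right, rc_zero_right,
          show k + i - L = k - (L - i) by omega]
        by_cases h2 : M - i ≤ a - L ∧ k - (L - i) ≤ b - L
        · rw [show d - (M + k - L) = (a - L - (M - i)) + (b - L - (k - (L - i))) by omega,
            show M + k - L = (M - i) + (k - (L - i)) by omega, pow_add, pow_add]
          ring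
        · rcases not_and_or.1 h2 with h3 | h3 <;>
            simp [Nat.choose_eq_zero_of_lt (not_le.1 h3)]
      · rw [if_neg h1, zero_mul]
        rcases not_and_or.1 h1 with h3 | h3
        · simp [h3]
        · simp [show ¬ (L - i ≤ k) by omega]
    rw [← key]
    field_simp
    rw [Real.sq_sqrt (Nat.cast_nonneg _)]
    simp only [s, r]
    ring
  · rw [Finset.sum_eq_zero]
    · symm
      rw [div_eq_zero_iff]
      left
      refine Finset.sum_eq_zero fun i hi => ?_
      rw [Finset.mem_range] at hi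
      split_ifs with h1 h2
      · have : a - L < M - i ∨ b - L < k - (L - i) := by omega
        rcases this with h3 | h3 <;> simp [rc_zero_right, Nat.choose_eq_zero_of_lt h3]
      all_goals simp
    · intro J hJ'
      rw [Finset.mem_range] at hJ'
      have hn : ¬ (M + k = J + L) := by omega
      simp [coup, hn]

end P359.Haar

end
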